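import Mathlib

/-!
# P013: a linear bound for Jacobsthal's function when the reciprocal prime sum is below one

Let `n ≥ 1`, let `k = ω(n)` be the number of distinct prime divisors of `n` and let
`s = ∑_{p ∣ n} 1 / p`.  If `L` is a natural number with `k < L * (1 - s)` (which forces
`s < 1`), then every block of `L` consecutive integers contains an integer coprime to `n`.
In other words `j(n) ≤ ⌊k / (1 - s)⌋ + 1` whenever `s < 1`.
-/

namespace Vale.Agent.Results.P013.ReciprocalSumClass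

open Finset

theorem result (n : ℕ) (hn : n ≠ 0) (L : ℕ)
    (hL : (n.primeFactors.card : ℝ) < (L : ℝ) * (1 - ∑ p ∈ n.primeFactors, (1 : ℝ) / (p : ℝ))) :
    ∀ a : ℤ, ∃ x : ℤ, a < x ∧ x ≤ a + (L : ℤ) ∧ IsCoprime x (n : ℤ) := by
  intro a
  by_contra hcon
  push Not at hcon
  -- every integer of the window is divisible by a prime factor of `n`
  have hcov : Ioc a (a + (L : ℤ)) ⊆
      n.primeFactors.biUnion (fun p => (Ioc a (a + (L : ℤ))).filter (fun x => (p : ℤ) ∣ x)) := by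
    intro x hx
    rw [mem_Ioc] at hx
    have hnc : ¬ IsCoprime x (n : ℤ) := hcon x hx.1 hx.2
    rw [Int.isCoprime_iff_gcd_eq_one] at hnc
    obtain ⟨p, hp, hpd⟩ := Nat.exists_prime_and_dvd hnc
    have hpx : (p : ℤ) ∣ x := by
      have h1 : p ∣ x.natAbs := hpd.trans (by simpa using Int.gcd_dvd_natAbs_left x (n : ℤ))
      exact Int.natCast_dvd.mpr h1
    have hpn : p ∣ n := by
      have h1 : p ∣ ((n : ℤ)).natAbs := hpd.trans (Int.gcd_dvd_natAbs_right x (n : ℤ))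
      simpa using h1
    rw [mem_biUnion]
    exact ⟨p, Nat.mem_primeFactors.mpr ⟨hp, hpn, hn⟩, mem_filter.mpr ⟨mem_Ioc.mpr hx, hpx⟩⟩
  have hcard : (L : ℝ) ≤ ∑ p ∈ n.primeFactors, ((L : ℝ) / (p : ℝ) + 1) := by
    have h1 : (Ioc a (a + (L : ℤ))).card ≤
        ∑ p ∈ n.primeFactors, ((Ioc a (a + (L : ℤ))).filter (fun x => (p : ℤ) ∣ x)).card :=
      (card_le_card hcov).trans card_biUnion_le
    have h2 : (Ioc a (a + (L : ℤ))).card = L := by simp
    have h3 : ∀ p ∈ n.primeFactors,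
        ((((Ioc a (a + (L : ℤ))).filter (fun x => (p : ℤ) ∣ x)).card : ℕ) : ℝ) ≤
          (L : ℝ) / (p : ℝ) + 1 := by
      intro p hp
      have hp0 : (0 : ℤ) < (p : ℤ) := by
        exact_mod_cast (Nat.prime_of_mem_primeFactors hp).pos
      have hpQ : (0 : ℚ) < ((p : ℤ) : ℚ) := by exact_mod_cast hp0
      have hc := Int.Ioc_filter_dvd_card a (a + (L : ℤ)) hp0
      have hc2 := congrArg (fun z : ℤ => (z : ℚ)) hc
      push_cast at hc2
      have hfl1 : (⌊((a : ℚ) + (L : ℚ)) / (p : ℚ)⌋ : ℚ) ≤ ((a : ℚ) + (L : ℚ)) / (p : ℚ) :=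
        Int.floor_le _
      have hfl2 : (a : ℚ) / (p : ℚ) < (⌊(a : ℚ) / (p : ℚ)⌋ : ℚ) + 1 :=
        Int.lt_floor_add_one _
      have hsplit : ((a : ℚ) + (L : ℚ)) / (p : ℚ) = (a : ℚ) / (p : ℚ) + (L : ℚ) / (p : ℚ) := by
        ring
      have hLp : (0 : ℚ) ≤ (L : ℚ) / (p : ℚ) := by positivity
      have hq : ((((Ioc a (a + (L : ℤ))).filter (fun x => (p : ℤ) ∣ x)).card : ℕ) : ℚ) ≤
          (L : ℚ) / (p : ℚ) + 1 := by
        rw [hc2]
        apply max_le
        · linarith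
        · linarith
      have hq' : (((((Ioc a (a + (L : ℤ))).filter (fun x => (p : ℤ) ∣ x)).card : ℕ) : ℚ) : ℝ) ≤
          (((L : ℚ) / (p : ℚ) + 1 : ℚ) : ℝ) := by exact_mod_cast hq
      push_cast at hq'
      exact hq'
    calc (L : ℝ) = (((Ioc a (a + (L : ℤ))).card : ℕ) : ℝ) := by rw [h2]
      _ ≤ ((∑ p ∈ n.primeFactors,
            ((Ioc a (a + (L : ℤ))).filter (fun x => (p : ℤ) ∣ x)).card : ℕ) : ℝ) := by
          exact_mod_cast h1
      _ = ∑ p ∈ n.primeFactors,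
            ((((Ioc a (a + (L : ℤ))).filter (fun x => (p : ℤ) ∣ x)).card : ℕ) : ℝ) := by
          push_cast
          rfl
      _ ≤ ∑ p ∈ n.primeFactors, ((L : ℝ) / (p : ℝ) + 1) := Finset.sum_le_sum h3
  have hsum : ∑ p ∈ n.primeFactors, ((L : ℝ) / (p : ℝ) + 1) =
      (L : ℝ) * (∑ p ∈ n.primeFactors, (1 : ℝ) / (p : ℝ)) + (n.primeFactors.card : ℝ) := by
    rw [Finset.sum_add_distrib, Finset.mul_sum]
    simp [div_eq_mul_inv]
  rw [hsum] at hcard
  nlinarith [hcard, hL]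

end Vale.Agent.Results.P013.ReciprocalSumClass
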