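import Mathlib
import Vale.Agent.Lib.P013.Split

/-!
# P013: a bound for Jacobsthal's function that sets aside the small primes

Let `n ≥ 1`, let `S` be any set of primes dividing `n`, `P` the product of the primes in `S`,
and `T` the set of the remaining primes dividing `n`.

1. If `L` is a natural number with `∑_{q ∈ T} ⌈L / q⌉ < L` (the ceiling is written as the
   natural-number quotient `(L + q - 1) / q`), then every block of `P * L` consecutive
   integers contains an integer coprime to `n`, i.e. `j(n) ≤ P * L`.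
2. The same conclusion holds if `|T| < L * (1 - ∑_{q ∈ T} 1 / q)`.
-/

namespace Vale.Agent.Results.P013.SmallPrimesSetAside

open Finset

theorem result (n : ℕ) (hn : n ≠ 0) (S : Finset ℕ) (hS : S ⊆ n.primeFactors) (L : ℕ) :
    (∑ q ∈ n.primeFactors \ S, (L + q - 1) / q < L →
        ∀ a : ℤ, ∃ x : ℤ, a < x ∧ x ≤ a + ((∏ p ∈ S, p : ℕ) : ℤ) * (L : ℤ) ∧
          IsCoprime x (n : ℤ)) ∧
    (((n.primeFactors \ S).card : ℝ) <
          (L : ℝ) * (1 - ∑ q ∈ n.primeFactors \ S, (1 : ℝ) / (q : ℝ)) →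
        ∀ a : ℤ, ∃ x : ℤ, a < x ∧ x ≤ a + ((∏ p ∈ S, p : ℕ) : ℤ) * (L : ℤ) ∧
          IsCoprime x (n : ℤ)) := by
  refine ⟨fun hL a => Vale.Agent.Lib.P013.split_window n hn S hS L hL a, fun hL a => ?_⟩
  apply Vale.Agent.Lib.P013.split_window n hn S hS L _ a
  have hterm : ∀ q ∈ n.primeFactors \ S,
      (((L + q - 1) / q : ℕ) : ℝ) ≤ (L : ℝ) / (q : ℝ) + 1 := by
    intro q hq
    have hqp : q.Prime := Nat.prime_of_mem_primeFactors (mem_sdiff.mp hq).1
    have hq0 : (0 : ℝ) < (q : ℝ) := by exact_mod_cast hqp.pos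
    have h1 : (((L + q - 1) / q : ℕ) : ℝ) ≤ ((L + q - 1 : ℕ) : ℝ) / (q : ℝ) := Nat.cast_div_le
    have h2 : ((L + q - 1 : ℕ) : ℝ) = (L : ℝ) + (q : ℝ) - 1 := by
      have h3 : 1 ≤ L + q := by have := hqp.pos; omega
      rw [Nat.cast_sub h3]; push_cast; ring
    rw [h2] at h1
    have h4 : ((L : ℝ) + (q : ℝ) - 1) / (q : ℝ) ≤ (L : ℝ) / (q : ℝ) + 1 := by
      rw [div_add_one (ne_of_gt hq0)]
      exact div_le_div_of_nonneg_right (by linarith) hq0.le
    linarith
  have hsum : ((∑ q ∈ n.primeFactors \ S, (L + q - 1) / q : ℕ) : ℝ) < (L : ℝ) := by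
    rw [Nat.cast_sum]
    calc ∑ q ∈ n.primeFactors \ S, (((L + q - 1) / q : ℕ) : ℝ)
        ≤ ∑ q ∈ n.primeFactors \ S, ((L : ℝ) / (q : ℝ) + 1) := Finset.sum_le_sum hterm
      _ = (L : ℝ) * (∑ q ∈ n.primeFactors \ S, (1 : ℝ) / (q : ℝ))
            + ((n.primeFactors \ S).card : ℝ) := by
          rw [Finset.sum_add_distrib, Finset.mul_sum]
          simp [div_eq_mul_inv]
      _ < (L : ℝ) := by linarith
  exact_mod_cast hsum

end Vale.Agent.Results.P013.SmallPrimesSetAside
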