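import Mathlib
import Vale.Agent.Lib.P013.Window
import Vale.Agent.Results.P013.ReciprocalSumClass

/-!
# P013: two-sided bounds for Jacobsthal's function from counting multiples

Let `n ≥ 1` and let `k = ω(n)` be the number of distinct primes dividing `n`.

1. If `L` is a natural number with `∑_{p ∣ n} ⌈L / p⌉ < L` (the ceiling is written as the
   natural-number quotient `(L + p - 1) / p`), then every block of `L` consecutive integers
   contains an integer coprime to `n`, i.e. `j(n) ≤ L`.
2. The same conclusion holds if `k < L * (1 - ∑_{p ∣ n} 1 / p)` (this is the statement of the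
   hand-in `P013.ReciprocalSumClass`).
3. There are `k` consecutive integers none of which is coprime to `n`, i.e. `j(n) ≥ k + 1`.
4. If every prime divisor of `n` is at least `k + 1`, then every block of `k + 1` consecutive
   integers contains an integer coprime to `n`; with 3. this gives `j(n) = k + 1`.
-/

namespace Vale.Agent.Results.P013.TwoSidedBounds

open Finset

theorem result (n : ℕ) (hn : n ≠ 0) :
    (∀ L : ℕ, ∑ p ∈ n.primeFactors, (L + p - 1) / p < L →
        ∀ a : ℤ, ∃ x : ℤ, a < x ∧ x ≤ a + (L : ℤ) ∧ IsCoprime x (n : ℤ)) ∧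
    (∀ L : ℕ,
        (n.primeFactors.card : ℝ) <
          (L : ℝ) * (1 - ∑ p ∈ n.primeFactors, (1 : ℝ) / (p : ℝ)) →
        ∀ a : ℤ, ∃ x : ℤ, a < x ∧ x ≤ a + (L : ℤ) ∧ IsCoprime x (n : ℤ)) ∧
    (∃ a : ℤ, ∀ x : ℤ, a < x → x ≤ a + (n.primeFactors.card : ℤ) → ¬ IsCoprime x (n : ℤ)) ∧
    ((∀ p ∈ n.primeFactors, n.primeFactors.card + 1 ≤ p) →
        ∀ a : ℤ, ∃ x : ℤ, a < x ∧ x ≤ a + ((n.primeFactors.card : ℤ) + 1) ∧
          IsCoprime x (n : ℤ)) := by
  -- the counting criterion
  have key : ∀ L : ℕ, ∑ p ∈ n.primeFactors, (L + p - 1) / p < L →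
      ∀ a : ℤ, ∃ x : ℤ, a < x ∧ x ≤ a + (L : ℤ) ∧ IsCoprime x (n : ℤ) := by
    intro L hL a
    by_contra hcon
    push Not at hcon
    have hcov : Ioc a (a + (L : ℤ)) ⊆
        n.primeFactors.biUnion
          (fun p => (Ioc a (a + (L : ℤ))).filter (fun x => (p : ℤ) ∣ x)) := by
      intro x hx
      rw [mem_Ioc] at hx
      have hnc : ¬ IsCoprime x (n : ℤ) := hcon x hx.1 hx.2
      rw [Int.isCoprime_iff_gcd_eq_one] at hnc
      obtain ⟨p, hp, hpd⟩ := Nat.exists_prime_and_dvd hnc
      have hpx : (p : ℤ) ∣ x := by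
        have h1 : p ∣ x.natAbs := hpd.trans (by simpa using Int.gcd_dvd_natAbs_left x (n : ℤ))
        exact Int.natCast_dvd.mpr h1
      have hpn : p ∣ n := by
        have h1 : p ∣ ((n : ℤ)).natAbs := hpd.trans (Int.gcd_dvd_natAbs_right x (n : ℤ))
        simpa using h1
      rw [mem_biUnion]
      exact ⟨p, Nat.mem_primeFactors.mpr ⟨hp, hpn, hn⟩, mem_filter.mpr ⟨mem_Ioc.mpr hx, hpx⟩⟩
    have h1 : (Ioc a (a + (L : ℤ))).card ≤
        ∑ p ∈ n.primeFactors, ((Ioc a (a + (L : ℤ))).filter (fun x => (p : ℤ) ∣ x)).card :=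
      (card_le_card hcov).trans card_biUnion_le
    have h2 : (Ioc a (a + (L : ℤ))).card = L := by simp
    have h3 : ∑ p ∈ n.primeFactors,
        ((Ioc a (a + (L : ℤ))).filter (fun x => (p : ℤ) ∣ x)).card ≤
          ∑ p ∈ n.primeFactors, (L + p - 1) / p :=
      Finset.sum_le_sum (fun p hp =>
        Vale.Agent.Lib.P013.card_multiples_le a L p (Nat.prime_of_mem_primeFactors hp).pos)
    omega
  refine ⟨key, fun L hL => Vale.Agent.Results.P013.ReciprocalSumClass.result n hn L hL,
    Vale.Agent.Lib.P013.exists_covered_window n, fun hbig a => ?_⟩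
  have hsum : ∑ p ∈ n.primeFactors, (n.primeFactors.card + 1 + p - 1) / p <
      n.primeFactors.card + 1 := by
    have h1 : ∀ p ∈ n.primeFactors, (n.primeFactors.card + 1 + p - 1) / p = 1 := by
      intro p hp
      have h2 := hbig p hp
      have h3 : n.primeFactors.card + 1 + p - 1 = n.primeFactors.card + p := by omega
      rw [h3]
      have h4 : (n.primeFactors.card + p) / p = n.primeFactors.card / p + 1 :=
        Nat.add_div_right _ (by omega)
      rw [h4, Nat.div_eq_of_lt (by omega)]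
    rw [Finset.sum_congr rfl h1]
    simp
  obtain ⟨x, hx1, hx2, hx3⟩ := key (n.primeFactors.card + 1) hsum a
  exact ⟨x, hx1, by push_cast at hx2; exact hx2, hx3⟩

end Vale.Agent.Results.P013.TwoSidedBounds
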